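import Vale.Agent.Lib.P322.Local

namespace Vale.Agent.Results.P322.AllClassesPlus

open Vale.Agent.Lib.P322

/-- For every `n`, every `ε ∈ [0,1/2]` and every Boolean function `f` on `{-1,1}^n`, the
conjectured inequality `I(f(X);Y) ≤ 1 - h₂(ε)` holds as soon as `f` lies in one of five classes:
(a) the sensitive edges of `f` contain a perfect matching of the cube;
(b) one level set of `f` contains no edge of the cube in some direction `i`;
(c) for some ordering `π` of the coordinates the Doob martingale of `f` has normalized quadratic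
    variation `Q_π(f) ≤ 1`;
(d) `P(f(X) = 1) ≤ 3/16` or `P(f(X) = 1) ≥ 13/16`;
(e) `f` differs from a coordinate function `x_i`, or from `-x_i`, on a fraction at most
    `ε(1-ε)/4` of the cube. -/
theorem result (n : ℕ) (ε : ℝ) (h0 : 0 ≤ ε) (h1 : ε ≤ 1 / 2) (f : (Fin n → ℤˣ) → ℤˣ)
    (hf : (∃ τ : (Fin n → ℤˣ) → (Fin n → ℤˣ), (∀ x, τ (τ x) = x) ∧
              ∀ x, (∃! i, τ x i ≠ x i) ∧ f (τ x) = - f x)
        ∨ (∃ (i : Fin n) (u : ℤˣ), ∀ x, f x = u → f (Function.update x i (-(x i))) = -u)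
        ∨ (∃ π : Equiv.Perm (Fin n), qvarOrd f π ≤ 1)
        ∨ (probOne f ≤ 3 / 16 ∨ 13 / 16 ≤ probOne f)
        ∨ (∃ i : Fin n,
            ((Finset.univ.filter (fun x => f x ≠ x i)).card : ℝ) / 2 ^ n ≤ ε * (1 - ε) / 4
            ∨ ((Finset.univ.filter (fun x => f x ≠ - x i)).card : ℝ) / 2 ^ n
                ≤ ε * (1 - ε) / 4)) :
    infoFY ε f ≤ 1 - h2 ε :=
  ck_union_plus h0 h1 f hf

end Vale.Agent.Results.P322.AllClassesPlus
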