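import Vale.Agent.Lib.P322.Local

namespace Vale.Agent.Results.P322.DictatorBall

open Vale.Agent.Lib.P322

/-- Let `0 ≤ ε ≤ 1/2`, `ρ = 1 - 2ε`, let `f` be any Boolean function on `{-1,1}^n` and `i` a
coordinate.
(1) `H(f(X)|Y) ≥ (1-ρ²) H(f(X)|Y_i) + ρ² Inf_i(f) h₂(ε)`, that is
`I(f(X);Y) ≤ H(f(X)) - (1-ρ²) (h₂(P(f=1|Y_i=1)) + h₂(P(f=1|Y_i=-1)))/2 - ρ² Inf_i(f) h₂(ε)`.
(2) If `s ∈ [0,1]` is such that `P(X_i ≠ u | f(X) = u) ≤ s` for `u = 1` and `u = -1`, and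
`2 ρ² s h₂(ε) ≤ (1-ρ²) (h₂(ε + ρ s) - h₂(ε))` or
`ρ s ≤ ε log(1/ε) - (1-ε) log(1/(1-ε))` (natural logarithms), then `I(f(X);Y) ≤ 1 - h₂(ε)`.
(3) If `P(f(X) ≠ X_i) ≤ ε(1-ε)/4` or `P(f(X) ≠ -X_i) ≤ ε(1-ε)/4`, then
`I(f(X);Y) ≤ 1 - h₂(ε)`. -/
theorem result (n : ℕ) (ε : ℝ) (h0 : 0 ≤ ε) (h1 : ε ≤ 1 / 2) (f : (Fin n → ℤˣ) → ℤˣ)
    (i : Fin n) :
    infoFY ε f ≤ h2 (probOne f)
        - (1 - (1 - 2 * ε) ^ 2) * ((h2 (condOne ε f i 1) + h2 (condOne ε f i (-1))) / 2)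
        - (1 - 2 * ε) ^ 2 * infl f i * h2 ε
    ∧ (∀ s : ℝ, 0 ≤ s → s ≤ 1 →
        (∀ u : ℤˣ, ((Finset.univ.filter (fun x => f x = u ∧ x i ≠ u)).card : ℝ)
            ≤ s * ((Finset.univ.filter (fun x => f x = u)).card : ℝ)) →
        (2 * (1 - 2 * ε) ^ 2 * s * h2 ε
            ≤ (1 - (1 - 2 * ε) ^ 2) * (h2 (ε + (1 - 2 * ε) * s) - h2 ε)
          ∨ (1 - 2 * ε) * s ≤ (1 - ε) * Real.log (1 - ε) - ε * Real.log ε) →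
        infoFY ε f ≤ 1 - h2 ε)
    ∧ ((((Finset.univ.filter (fun x => f x ≠ x i)).card : ℝ) / 2 ^ n ≤ ε * (1 - ε) / 4
          ∨ ((Finset.univ.filter (fun x => f x ≠ - x i)).card : ℝ) / 2 ^ n ≤ ε * (1 - ε) / 4) →
        infoFY ε f ≤ 1 - h2 ε) := by
  refine ⟨onecoord h0 (by linarith) f i, ?_, ?_⟩
  · intro s hs0 hs1 hcond hstar
    rcases hstar with hstar | hs
    · exact ck_of_local h0 h1 f i s hs0 hs1 hcond hstar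
    · exact ck_of_local h0 h1 f i s hs0 hs1 hcond (local_condition_log_bits h0 h1 hs0 hs1 hs)
  · intro h
    rcases h with h | h
    · exact ck_of_near_coordinate h0 h1 f i h
    · exact ck_of_near_anticoordinate h0 h1 f i h

end Vale.Agent.Results.P322.DictatorBall
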