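import Vale.Agent.Lib.P322.Order

namespace Vale.Agent.Results.P322.DoobAnyOrder

open Vale.Agent.Lib.P322

/-- For every Boolean function `f` on `{-1,1}^n`, every `ε ∈ [0,1/2]` and every ordering `π` of
the coordinates: `I(f(X);Y) ≤ Q_π(f) * (1 - h₂(ε))`, where
`Q_π(f) = E ∑_i (M_{i+1} - M_i)^2 / (M_i (1 - M_i))` is the normalized quadratic variation of the
Doob martingale `M_i = P(f(X) = 1 | X_{π 0}, …, X_{π (i-1)})`.
In particular the conjectured inequality holds for `f` as soon as `Q_π(f) ≤ 1` for some `π`. -/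
theorem result (n : ℕ) (ε : ℝ) (h0 : 0 ≤ ε) (h1 : ε ≤ 1 / 2) (f : (Fin n → ℤˣ) → ℤˣ)
    (π : Equiv.Perm (Fin n)) :
    infoFY ε f ≤ qvarOrd f π * (1 - h2 ε)
      ∧ (qvarOrd f π ≤ 1 → infoFY ε f ≤ 1 - h2 ε) := by
  have hε1 : ε ≤ 1 := by linarith
  have hmain := info_le_qvarOrd h0 hε1 f π
  refine ⟨hmain, fun hq => ?_⟩
  have hnn := one_sub_h2_nonneg h0 hε1
  calc infoFY ε f ≤ qvarOrd f π * (1 - h2 ε) := hmain
    _ ≤ 1 * (1 - h2 ε) := mul_le_mul_of_nonneg_right hq hnn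
    _ = 1 - h2 ε := one_mul _

end Vale.Agent.Results.P322.DoobAnyOrder
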