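import Vale.Agent.Lib.P322.HighNoise2

namespace Vale.Agent.Results.P322.HighNoiseExplicit

open Vale.Agent.Lib.P322

/-- For every `n`, every Boolean function `f` on `{-1,1}^n`, balanced or not, and every crossover
probability `ε` with `2/5 ≤ ε ≤ 1/2` (that is, `ρ = 1 - 2ε ≤ 1/5`):
`I(f(X);Y) ≤ 1 - h₂(ε)`. -/
theorem result (n : ℕ) (ε : ℝ) (h0 : 2 / 5 ≤ ε) (h1 : ε ≤ 1 / 2) (f : (Fin n → ℤˣ) → ℤˣ) :
    infoFY ε f ≤ 1 - h2 ε :=
  ck_high_noise2 h0 h1 f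

end Vale.Agent.Results.P322.HighNoiseExplicit
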